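import Vale.Agent.P283.M647.Props

/-!
Row C4: complete books, points with pages in `𝒬`.
-/

set_option linter.all false

namespace Vale.Agent.P283.M647

open Vale.Agent.P283.T647 (psum fval Triv)
open Vale.Agent.P283.A647 (Sol InBook Mt)

namespace H691

variable {P ι : Type} [Fintype P] [DecidableEq P] [Fintype ι] {k : ℕ}

/-- The rays on the pages which are not merged, and on the spine. -/
abbrev RJ (p₀ : P) (𝒮 : Finset P) (pg : ι → Option P) :=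
  {j : ι // ∀ p, pg j = some p → p = p₀ ∨ p ∈ 𝒮}

/-- The choices of rays on the groups. -/
abbrev RF (𝒯 : Finset P) (γ : P → P) (pg : ι → Option P) :=
  {y : P × (P → ι) // y.1 ∈ 𝒯.image γ ∧ ∀ p ∈ 𝒯, γ p = y.1 → pg (y.2 p) = some p}

/-- The coordinates. -/
abbrev XX (𝒮 𝒯 : Finset P) (γ : P → P) (k : ℕ) :=
  {p // p ∈ 𝒮} ⊕ ({x // x ∈ 𝒯.image γ} ⊕ Fin k)

/-- The multiplicity on `p₀`. -/
def s0 (p₀ : P) (pg : ι → Option P) (s : ι → ℕ) (j : ι) : ℤ :=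
  if pg j = some p₀ then (s j : ℤ) else 0

/-- The rays of the merged book. -/
def mv (p₀ : P) (𝒮 𝒯 : Finset P) (γ : P → P) (pg : ι → Option P) (s : ι → ℕ)
    (w : ι → Fin k → ℤ) (W : Fin k → ℤ) : (RJ p₀ 𝒮 pg ⊕ RF 𝒯 γ pg) → XX 𝒮 𝒯 γ k → ℤ
  | .inl j, .inl p => (if pg j.1 = some p.1 then (s j.1 : ℤ) else 0) - s0 p₀ pg s j.1
  | .inl j, .inr (.inl _) => - s0 p₀ pg s j.1
  | .inl j, .inr (.inr i) => w j.1 i + s0 p₀ pg s j.1 * W i
  | .inr _, .inl _ => 0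
  | .inr y, .inr (.inl x) => if x.1 = y.1.1 then 1 else 0
  | .inr y, .inr (.inr i) => ∑ p ∈ 𝒯.filter (fun p => γ p = y.1.1), w (y.1.2 p) i

/-- The bounds of the merged book. -/
def mT (g q : ℕ) (p₀ : P) (𝒮 𝒯 : Finset P) (γ : P → P) (pg : ι → Option P) (s κ : ι → ℕ) :
    (RJ p₀ 𝒮 pg ⊕ RF 𝒯 γ pg) → ℤ
  | .inl j => (pg j.1).elim 0 (fun _ => (q : ℤ) * s j.1) - κ j.1 - (g + 1) * q * s0 p₀ pg s j.1
  | .inr _ => 0

/-- The numbers `κ` of the merged book. -/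
def mκ (g q : ℕ) (p₀ : P) (𝒮 𝒯 : Finset P) (γ : P → P) (pg : ι → Option P) (κ : ι → ℕ) :
    (RJ p₀ 𝒮 pg ⊕ RF 𝒯 γ pg) → ℕ
  | .inl j => κ j.1
  | .inr _ => (g + 1) * q

/-- A functional on the merged book. -/
def fn (𝒮 𝒯 : Finset P) (γ : P → P) (e β : P → ℤ) (u : Fin k → ℤ) : XX 𝒮 𝒯 γ k → ℤ :=
  Sum.elim (fun p => e p.1) (Sum.elim (fun x => β x.1) u)

/-- The sums over the groups. -/
def grp (𝒯 : Finset P) (γ : P → P) (F : P → ℤ) : P → ℤ :=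
  fun x => ∑ p ∈ 𝒯.filter (fun p => γ p = x), F p

theorem fn_surj (𝒮 𝒯 : Finset P) (γ : P → P) (Y : XX 𝒮 𝒯 γ k → ℤ) :
    ∃ (e β : P → ℤ) (u : Fin k → ℤ), Y = fn 𝒮 𝒯 γ e β u := by
  classical
  refine ⟨fun p => if h : p ∈ 𝒮 then Y (Sum.inl ⟨p, h⟩) else 0,
    fun p => if h : p ∈ 𝒯.image γ then Y (Sum.inr (Sum.inl ⟨p, h⟩)) else 0,
    fun i => Y (Sum.inr (Sum.inr i)), ?_⟩
  funext x
  rcases x with ⟨p, hp⟩ | ⟨p, hp⟩ | i
  · show _ = dite _ _ _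
    rw [dif_pos hp]
  · show _ = dite _ _ _
    rw [dif_pos hp]
  · rfl

variable {g q : ℕ} {p₀ : P} {𝒮 𝒯 𝒬 : Finset P} {γ : P → P} {pg : ι → Option P} {s : ι → ℕ}
  {w : ι → Fin k → ℤ} {W : Fin k → ℤ} {κ : ι → ℕ}

/-- The value on `p₀`. -/
def e0 (𝒮 𝒯 : Finset P) (γ : P → P) (W : Fin k → ℤ) (e β : P → ℤ) (u : Fin k → ℤ) : ℤ :=
  ∑ i, u i * W i - ∑ p ∈ 𝒮, e p - ∑ x ∈ 𝒯.image γ, β x

theorem pair_inl (hS0 : p₀ ∉ 𝒮) (e β : P → ℤ) (u : Fin k → ℤ) (j : RJ p₀ 𝒮 pg) :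
    ∑ x, fn 𝒮 𝒯 γ e β u x * mv p₀ 𝒮 𝒯 γ pg s w W (Sum.inl j) x =
      (pg j.1).elim 0 (fun p => (s j.1 : ℤ) * (if p = p₀ then e0 𝒮 𝒯 γ W e β u else e p)) +
        ∑ i, u i * w j.1 i := by
  obtain ⟨j, hj⟩ := j
  rw [Fintype.sum_sum_type, Fintype.sum_sum_type]
  have h2 : ∑ x : {x // x ∈ 𝒯.image γ}, fn 𝒮 𝒯 γ e β u (Sum.inr (Sum.inl x)) *
      mv p₀ 𝒮 𝒯 γ pg s w W (Sum.inl ⟨j, hj⟩) (Sum.inr (Sum.inl x)) =
      - s0 p₀ pg s j * ∑ x ∈ 𝒯.image γ, β x := by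
    rw [← Finset.sum_coe_sort (𝒯.image γ), Finset.mul_sum]
    refine Finset.sum_congr rfl fun x _ => ?_
    show β x.1 * (- s0 p₀ pg s j) = _
    ring
  have h3 : ∑ i, fn 𝒮 𝒯 γ e β u (Sum.inr (Sum.inr i)) *
      mv p₀ 𝒮 𝒯 γ pg s w W (Sum.inl ⟨j, hj⟩) (Sum.inr (Sum.inr i)) =
      ∑ i, u i * w j i + s0 p₀ pg s j * ∑ i, u i * W i := by
    rw [Finset.mul_sum, ← Finset.sum_add_distrib]
    refine Finset.sum_congr rfl fun i _ => ?_
    show u i * (w j i + s0 p₀ pg s j * W i) = _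
    ring
  have h1 : ∑ p : {p // p ∈ 𝒮}, fn 𝒮 𝒯 γ e β u (Sum.inl p) *
      mv p₀ 𝒮 𝒯 γ pg s w W (Sum.inl ⟨j, hj⟩) (Sum.inl p) =
      ∑ p ∈ 𝒮, e p * (if pg j = some p then (s j : ℤ) else 0) - s0 p₀ pg s j * ∑ p ∈ 𝒮, e p := by
    rw [Finset.mul_sum, ← Finset.sum_sub_distrib, ← Finset.sum_coe_sort 𝒮]
    refine Finset.sum_congr rfl fun p _ => ?_
    show e p.1 * ((if pg j = some p.1 then (s j : ℤ) else 0) - s0 p₀ pg s j) = _
    ring
  rw [h1, h2, h3]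
  rcases hp : pg j with _ | p
  · have hs : s0 p₀ pg s j = 0 := by simp [s0, hp]
    have h4 : ∑ p ∈ 𝒮, e p * (if (none : Option P) = some p then (s j : ℤ) else 0) = 0 :=
      Finset.sum_eq_zero fun p _ => by simp
    rw [hs, h4]
    simp
  · rcases hj p hp with rfl | hpS
    · have hs : s0 p pg s j = s j := by simp [s0, hp]
      have h4 : ∑ p' ∈ 𝒮, e p' * (if some p = some p' then (s j : ℤ) else 0) = 0 :=
        Finset.sum_eq_zero fun p' hp' => by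
          have : p ≠ p' := fun h => hS0 (h ▸ hp')
          simp [this]
      rw [hs, h4]
      simp only [Option.elim, if_true, e0]
      ring
    · have hne : p ≠ p₀ := fun h => hS0 (h ▸ hpS)
      have hs : s0 p₀ pg s j = 0 := by simp [s0, hp, hne]
      have h4 : ∑ p' ∈ 𝒮, e p' * (if some p = some p' then (s j : ℤ) else 0) = s j * e p := by
        rw [Finset.sum_eq_single_of_mem p hpS]
        · simp [mul_comm]
        · intro p' _ hp'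
          have : p ≠ p' := fun h => hp' h.symm
          simp [this]
      rw [hs, h4]
      simp only [Option.elim, if_neg hne]
      ring

theorem pair_inr (e β : P → ℤ) (u : Fin k → ℤ) (y : RF 𝒯 γ pg) :
    ∑ x, fn 𝒮 𝒯 γ e β u x * mv p₀ 𝒮 𝒯 γ pg s w W (Sum.inr y) x =
      β y.1.1 + ∑ p ∈ 𝒯.filter (fun p => γ p = y.1.1), ∑ i, u i * w (y.1.2 p) i := by
  obtain ⟨y, hy, hy'⟩ := y
  rw [Fintype.sum_sum_type, Fintype.sum_sum_type]
  have h1 : ∑ p : {p // p ∈ 𝒮}, fn 𝒮 𝒯 γ e β u (Sum.inl p) *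
      mv p₀ 𝒮 𝒯 γ pg s w W (Sum.inr ⟨y, hy, hy'⟩) (Sum.inl p) = 0 :=
    Finset.sum_eq_zero fun p _ => mul_zero _
  have h2 : ∑ x : {x // x ∈ 𝒯.image γ}, fn 𝒮 𝒯 γ e β u (Sum.inr (Sum.inl x)) *
      mv p₀ 𝒮 𝒯 γ pg s w W (Sum.inr ⟨y, hy, hy'⟩) (Sum.inr (Sum.inl x)) = β y.1 := by
    rw [Finset.sum_eq_single (⟨y.1, hy⟩ : {x // x ∈ 𝒯.image γ})]
    · show β y.1 * (if y.1 = y.1 then 1 else 0) = _
      rw [if_pos rfl, mul_one]
    · intro x _ hx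
      show β x.1 * (if x.1 = y.1 then 1 else 0) = _
      rw [if_neg fun h => hx (Subtype.ext h), mul_zero]
    · intro h
      exact absurd (Finset.mem_univ _) h
  have h3 : ∑ i, fn 𝒮 𝒯 γ e β u (Sum.inr (Sum.inr i)) *
      mv p₀ 𝒮 𝒯 γ pg s w W (Sum.inr ⟨y, hy, hy'⟩) (Sum.inr (Sum.inr i)) =
      ∑ p ∈ 𝒯.filter (fun p => γ p = y.1), ∑ i, u i * w (y.2 p) i := by
    rw [Finset.sum_comm]
    refine Finset.sum_congr rfl fun i _ => ?_
    show u i * ∑ p ∈ 𝒯.filter (fun p => γ p = y.1), w (y.2 p) i = _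
    rw [Finset.mul_sum]
  rw [h1, h2, h3, zero_add]

theorem pair_fn (e β e' β' : P → ℤ) (u u' : Fin k → ℤ) :
    ∑ x, fn 𝒮 𝒯 γ e β u x * fn 𝒮 𝒯 γ e' β' u' x =
      ∑ p ∈ 𝒮, e p * e' p + ∑ x ∈ 𝒯.image γ, β x * β' x + ∑ i, u i * u' i := by
  rw [Fintype.sum_sum_type, Fintype.sum_sum_type, ← Finset.sum_coe_sort 𝒮,
    ← Finset.sum_coe_sort (𝒯.image γ), add_assoc]
  rfl

theorem sum_grp (F G : P → ℤ) :
    ∑ x ∈ 𝒯.image γ, grp 𝒯 γ F x * G x = ∑ p ∈ 𝒯, F p * G (γ p) := by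
  rw [← Finset.sum_fiberwise_of_maps_to (s := 𝒯) (t := 𝒯.image γ) (g := γ)
    (fun p hp => Finset.mem_image_of_mem _ hp)]
  refine Finset.sum_congr rfl fun x _ => ?_
  unfold grp
  rw [Finset.sum_mul]
  refine Finset.sum_congr rfl fun p hp => ?_
  rw [(Finset.mem_filter.1 hp).2]

theorem sum_grp' (F : P → ℤ) :
    ∑ x ∈ 𝒯.image γ, grp 𝒯 γ F x = ∑ p ∈ 𝒯, F p := by
  have := sum_grp (𝒯 := 𝒯) (γ := γ) F (fun _ => 1)
  simpa using this

/-- The decomposition of `𝒬`. -/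
structure Dec (p₀ : P) (𝒮 𝒯 𝒬 : Finset P) : Prop where
  S0 : p₀ ∉ 𝒮
  T0 : p₀ ∉ 𝒯
  ST : Disjoint 𝒮 𝒯
  eq : 𝒬 = insert p₀ (𝒮 ∪ 𝒯)

theorem Dec.sum {M : Type} [AddCommMonoid M] (h : Dec p₀ 𝒮 𝒯 𝒬) (F : P → M) :
    ∑ p ∈ 𝒬, F p = F p₀ + (∑ p ∈ 𝒮, F p + ∑ p ∈ 𝒯, F p) := by
  rw [h.eq, Finset.sum_insert, Finset.sum_union h.ST]
  intro h'
  rcases Finset.mem_union.1 h' with h1 | h1
  · exact h.S0 h1
  · exact h.T0 h1

theorem Dec.mem (h : Dec p₀ 𝒮 𝒯 𝒬) {p : P} : p ∈ 𝒬 ↔ p = p₀ ∨ p ∈ 𝒮 ∨ p ∈ 𝒯 := by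
  rw [h.eq]
  simp

theorem Dec.mem0 (h : Dec p₀ 𝒮 𝒯 𝒬) : p₀ ∈ 𝒬 := h.mem.2 (Or.inl rfl)
theorem Dec.memS (h : Dec p₀ 𝒮 𝒯 𝒬) {p : P} (hp : p ∈ 𝒮) : p ∈ 𝒬 := h.mem.2 (Or.inr (Or.inl hp))
theorem Dec.memT (h : Dec p₀ 𝒮 𝒯 𝒬) {p : P} (hp : p ∈ 𝒯) : p ∈ 𝒬 := h.mem.2 (Or.inr (Or.inr hp))

theorem exists_max (hne : ∀ p, ∃ j, pg j = some p) (φ : ι → ℤ) :
    ∃ g : P → ι, (∀ p, pg (g p) = some p) ∧ ∀ p j, pg j = some p → φ j ≤ φ (g p) := by
  classical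
  have h : ∀ p, ∃ j, pg j = some p ∧ ∀ j', pg j' = some p → φ j' ≤ φ j := by
    intro p
    obtain ⟨j0, hj0⟩ := hne p
    obtain ⟨j, hj, hmax⟩ := Finset.exists_max_image (Finset.univ.filter fun j => pg j = some p) φ
      ⟨j0, by simp [hj0]⟩
    refine ⟨j, by simpa using hj, fun j' hj' => hmax j' (by simp [hj'])⟩
  choose g hg hg' using h
  exact ⟨g, hg, fun p j hj => hg' p j hj⟩

theorem neg_dot (c x : Fin k → ℤ) : ∑ i, (-c i) * x i = - ∑ i, c i * x i := by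
  rw [← Finset.sum_neg_distrib]
  exact Finset.sum_congr rfl fun i _ => by ring

/-- From a solution of the merged problem to an admissible functional. -/
theorem back (hD : Dec p₀ 𝒮 𝒯 𝒬) (hne : ∀ p, ∃ j, pg j = some p)
    (htriv : ∀ p ∈ 𝒯, Triv q pg s κ p) (K : ℕ) (e β : P → ℤ) (u : Fin k → ℤ)
    (h : ∀ j, (K : ℤ) * mT g q p₀ 𝒮 𝒯 γ pg s κ j ≤
      ∑ x, fn 𝒮 𝒯 γ e β u x * mv p₀ 𝒮 𝒯 γ pg s w W j x) (σ : P → ℕ) (hσ0 : σ p₀ = 0)
    (hσ : ∀ p ∈ 𝒯, σ (γ p) = σ p) :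
    ∃ b : P → ℤ, SolQ g q K pg s w κ 𝒬 W b (fun i => -u i) ∧
      ∑ p ∈ 𝒬, b p * σ p ≤ ∑ p ∈ 𝒮, e p * σ p + ∑ x ∈ 𝒯.image γ, β x * σ x := by
  classical
  obtain ⟨m, hm, hmax⟩ := exists_max hne (fun j => ∑ i, (-u i) * w j i)
  set M : P → ℤ := fun p => ∑ i, (-u i) * w (m p) i with hM
  have hgrp : ∀ x ∈ 𝒯.image γ, grp 𝒯 γ M x ≤ β x := by
    intro x hx
    have h1 := h (Sum.inr ⟨(x, m), hx, fun p _ _ => hm p⟩)
    rw [pair_inr] at h1
    simp only [mT, mul_zero] at h1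
    have h2 : grp 𝒯 γ M x = - ∑ p ∈ 𝒯.filter (fun p => γ p = x), ∑ i, u i * w (m p) i := by
      unfold grp
      rw [← Finset.sum_neg_distrib]
      exact Finset.sum_congr rfl fun p _ => neg_dot _ _
    rw [h2]
    linarith
  set b : P → ℤ := fun p => if p = p₀ then e0 𝒮 𝒯 γ W e β u + (g + 1) * q * K else
    if p ∈ 𝒯 then M p else e p with hb
  have hb0 : b p₀ = e0 𝒮 𝒯 γ W e β u + (g + 1) * q * K := if_pos rfl
  have hbS : ∀ p ∈ 𝒮, b p = e p := by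
    intro p hp
    have h1 : p ≠ p₀ := fun h => hD.S0 (h ▸ hp)
    have h2 : p ∉ 𝒯 := Finset.disjoint_left.1 hD.ST hp
    simp only [hb, if_neg h1, if_neg h2]
  have hbT : ∀ p ∈ 𝒯, b p = M p := by
    intro p hp
    have h1 : p ≠ p₀ := fun h => hD.T0 (h ▸ hp)
    simp only [hb, if_neg h1, if_pos hp]
  refine ⟨b, ⟨?_, ?_⟩, ?_⟩
  · have h3 := Finset.sum_le_sum hgrp
    rw [sum_grp'] at h3
    rw [hD.sum, hb0, Finset.sum_congr rfl hbS, Finset.sum_congr rfl hbT, neg_dot, e0]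
    linarith
  · intro j hj
    by_cases hjT : ∃ p ∈ 𝒯, pg j = some p
    · obtain ⟨p, hp, hpj⟩ := hjT
      obtain ⟨h1, h2⟩ := htriv p hp j hpj
      unfold fval
      simp only [hpj, Option.elim]
      rw [hbT p hp, h1, h2]
      have h3 := hmax p j hpj
      push_cast
      linarith
    · have hj' : ∀ p, pg j = some p → p = p₀ ∨ p ∈ 𝒮 := by
        intro p hp
        rcases hD.mem.1 (hj p hp) with h1 | h1 | h1
        · exact Or.inl h1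
        · exact Or.inr h1
        · exact absurd ⟨p, h1, hp⟩ hjT
      have h1 := h (Sum.inl ⟨j, hj'⟩)
      rw [pair_inl hD.S0] at h1
      simp only [mT] at h1
      unfold fval
      rw [neg_dot]
      rcases hp : pg j with _ | p
      · have hs : s0 p₀ pg s j = 0 := by simp [s0, hp]
        rw [hs] at h1
        simp only [hp, Option.elim] at h1 ⊢
        linarith
      · rcases hj' p hp with rfl | hpS
        · have hs : s0 p pg s j = s j := by simp [s0, hp]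
          rw [hs] at h1
          simp only [hp, Option.elim, if_true] at h1 ⊢
          rw [hb0]
          linarith
        · have hne : p ≠ p₀ := fun h => hD.S0 (h ▸ hpS)
          have hs : s0 p₀ pg s j = 0 := by simp [s0, hp, hne]
          rw [hs] at h1
          simp only [hp, Option.elim, if_neg hne] at h1 ⊢
          rw [hbS p hpS]
          linarith
  · rw [hD.sum, hσ0, Nat.cast_zero, mul_zero, zero_add]
    have h1 : ∑ p ∈ 𝒮, b p * σ p = ∑ p ∈ 𝒮, e p * σ p :=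
      Finset.sum_congr rfl fun p hp => by rw [hbS p hp]
    have h2 : ∑ p ∈ 𝒯, b p * σ p = ∑ x ∈ 𝒯.image γ, grp 𝒯 γ M x * σ x := by
      rw [sum_grp M (fun x => (σ x : ℤ))]
      exact Finset.sum_congr rfl fun p hp => by rw [hbT p hp, hσ p hp]
    rw [h1, h2]
    gcongr with x hx
    exact hgrp x hx

/-- The functional given by a function on the pages. -/
def fnP (𝒮 𝒯 : Finset P) (γ : P → P) (F : P → ℤ) (u : Fin k → ℤ) : XX 𝒮 𝒯 γ k → ℤ :=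
  fn 𝒮 𝒯 γ F (grp 𝒯 γ F) u

theorem pair_target (hD : Dec p₀ 𝒮 𝒯 𝒬) (F : P → ℤ) (u a : Fin k → ℤ) (σ : P → ℕ)
    (hσ0 : σ p₀ = 0) (hσ : ∀ p ∈ 𝒯, σ (γ p) = σ p) :
    ∑ x, fnP 𝒮 𝒯 γ F u x * fn 𝒮 𝒯 γ (fun p => (σ p : ℤ)) (fun p => (σ p : ℤ)) a x =
      ∑ p ∈ 𝒬, F p * σ p + ∑ i, u i * a i := by
  unfold fnP
  rw [pair_fn, hD.sum, hσ0, Nat.cast_zero, mul_zero, zero_add,
    sum_grp F (fun x => (σ x : ℤ))]
  congr 2
  exact Finset.sum_congr rfl fun p hp => by rw [hσ p hp]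

/-- The sum over `𝒬`, for a functional of this form. -/
theorem e0_fnP (hD : Dec p₀ 𝒮 𝒯 𝒬) (F : P → ℤ) (u : Fin k → ℤ) :
    e0 𝒮 𝒯 γ W F (grp 𝒯 γ F) u = ∑ i, u i * W i + F p₀ - ∑ p ∈ 𝒬, F p := by
  rw [hD.sum, e0, sum_grp']
  ring

/-- Admissible functionals give solutions of the merged problem. -/
theorem fwd (hD : Dec p₀ 𝒮 𝒯 𝒬) (htriv : ∀ p ∈ 𝒯, Triv q pg s κ p) (r : ℕ) (b : P → ℤ)
    (c : Fin k → ℤ) (hS : SolQ g q r pg s w κ 𝒬 W b c) (j) :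
    (r : ℤ) * mT g q p₀ 𝒮 𝒯 γ pg s κ j ≤
      ∑ x, fnP 𝒮 𝒯 γ b (fun i => -c i) x * mv p₀ 𝒮 𝒯 γ pg s w W j x := by
  unfold fnP
  rcases j with ⟨j, hj⟩ | ⟨y, hy, hy'⟩
  · rw [pair_inl hD.S0, e0_fnP hD, neg_dot, neg_dot]
    have h1 := hS.2 j (fun p hp => by
      rcases hj p hp with h | h
      · exact h ▸ hD.mem0
      · exact hD.memS h)
    have h0 := hS.1
    unfold fval at h1
    simp only [mT]
    rcases hp : pg j with _ | p
    · have hs : s0 p₀ pg s j = 0 := by simp [s0, hp]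
      rw [hs]
      simp only [hp, Option.elim] at h1 ⊢
      linarith
    · rcases hj p hp with rfl | hpS
      · have hs : s0 p pg s j = s j := by simp [s0, hp]
        rw [hs]
        simp only [hp, Option.elim, if_true] at h1 ⊢
        have h3 : (0 : ℤ) ≤ s j := Int.natCast_nonneg _
        nlinarith [mul_le_mul_of_nonneg_left h0 h3]
      · have hne : p ≠ p₀ := fun h => hD.S0 (h ▸ hpS)
        have hs : s0 p₀ pg s j = 0 := by simp [s0, hp, hne]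
        rw [hs]
        simp only [hp, Option.elim, if_neg hne] at h1 ⊢
        linarith
  · rw [pair_inr]
    simp only [mT, mul_zero]
    unfold grp
    rw [← Finset.sum_add_distrib]
    refine Finset.sum_nonneg fun p hp => ?_
    obtain ⟨hp1, hp2⟩ := Finset.mem_filter.1 hp
    have hpg := hy' p hp1 hp2
    obtain ⟨h1, h2⟩ := htriv p hp1 _ hpg
    have h3 := hS.2 _ (fun p' hp' => by
      rw [hpg] at hp'
      cases hp'
      exact hD.memT hp1)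
    unfold fval at h3
    simp only [hpg, Option.elim] at h3
    rw [h1, h2] at h3
    rw [neg_dot]
    push_cast at h3
    linarith

/-- The functional of a basis. -/
def bas (q : ℕ) (B : Finset P) : P → ℤ := fun p => if p ∈ B then (q : ℤ) else 0

theorem sum_bas (B : Finset P) (hB : B ⊆ 𝒬) (F : P → ℤ) :
    ∑ p ∈ 𝒬, bas q B p * F p = q * ∑ p ∈ B, F p := by
  unfold bas
  simp only [ite_mul, zero_mul]
  rw [← Finset.sum_filter, Finset.mul_sum]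
  have : 𝒬.filter (fun p => p ∈ B) = B := by
    ext p
    simp only [Finset.mem_filter]
    exact ⟨fun h => h.2, fun h => ⟨hB h, h⟩⟩
  rw [this]

theorem ls_le (hD : Dec p₀ 𝒮 𝒯 𝒬) {B : Finset P} (hB : B ⊆ 𝒬) (hcard : B.card = g + 1) (j) :
    ∑ x, fnP 𝒮 𝒯 γ (bas q B) (0 : Fin k → ℤ) x * mv p₀ 𝒮 𝒯 γ pg s w W j x ≤
      mT g q p₀ 𝒮 𝒯 γ pg s κ j + (mκ g q p₀ 𝒮 𝒯 γ pg κ j : ℕ) := by
  have hq : (0 : ℤ) ≤ q := Int.natCast_nonneg _
  have hbas : ∀ p, bas q B p ≤ q := by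
    intro p
    unfold bas
    split_ifs
    · exact le_rfl
    · exact hq
  have hbas0 : ∀ p, 0 ≤ bas q B p := by
    intro p
    unfold bas
    split_ifs
    · exact hq
    · exact le_rfl
  have hsum : ∑ p ∈ 𝒬, bas q B p = q * (g + 1) := by
    have := sum_bas (q := q) B hB (fun _ => 1)
    simp only [mul_one, Finset.sum_const, nsmul_eq_mul, hcard] at this
    rw [this]
    push_cast
    ring
  unfold fnP
  rcases j with ⟨j, hj⟩ | ⟨y, hy, hy'⟩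
  · rw [pair_inl hD.S0, e0_fnP hD, hsum]
    simp only [mT, mκ, Pi.zero_apply, zero_mul, Finset.sum_const_zero, add_zero, zero_add]
    have h3 : (0 : ℤ) ≤ s j := Int.natCast_nonneg _
    rcases hp : pg j with _ | p
    · have hs : s0 p₀ pg s j = 0 := by simp [s0, hp]
      rw [hs]
      simp
    · rcases hj p hp with rfl | hpS
      · have hs : s0 p pg s j = s j := by simp [s0, hp]
        rw [hs]
        simp only [Option.elim, if_true]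
        nlinarith [mul_le_mul_of_nonneg_left (hbas p) h3]
      · have hne : p ≠ p₀ := fun h => hD.S0 (h ▸ hpS)
        have hs : s0 p₀ pg s j = 0 := by simp [s0, hp, hne]
        rw [hs]
        simp only [Option.elim, if_neg hne]
        nlinarith [mul_le_mul_of_nonneg_left (hbas p) h3]
  · rw [pair_inr]
    simp only [mT, mκ, Pi.zero_apply, zero_mul, Finset.sum_const_zero, add_zero, zero_add]
    have h1 : grp 𝒯 γ (bas q B) y.1 ≤ ∑ p ∈ 𝒬, bas q B p := by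
      unfold grp
      refine Finset.sum_le_sum_of_subset_of_nonneg ?_ fun p _ _ => hbas0 p
      intro p hp
      exact hD.memT (Finset.mem_filter.1 hp).1
    rw [hsum] at h1
    refine h1.trans (le_of_eq ?_)
    push_cast
    ring

theorem sum_ext_sub' {α : Type} [Fintype α] (p : α → Prop) [inst : Fintype {a // p a}]
    (c : {a // p a} → ℝ) : ∃ c₁ : α → ℝ, (∀ a (h : p a), c₁ a = c ⟨a, h⟩) ∧
      (∀ a, ¬ p a → c₁ a = 0) ∧ ∀ G : α → ℝ, ∑ a : {a // p a}, c a * G a.1 = ∑ a, c₁ a * G a := by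
  classical
  have h0 : inst = Subtype.fintype _ := Subsingleton.elim _ _
  subst h0
  refine ⟨fun a => if h : p a then c ⟨a, h⟩ else 0, fun a h => dif_pos h, fun a h => dif_neg h,
    fun G => ?_⟩
  rw [← Fintype.sum_subtype_add_sum_subtype p
    (fun a => (if h : p a then c ⟨a, h⟩ else 0) * G a)]
  have h2 : ∑ a : {a // ¬ p a}, (if h : p a.1 then c ⟨a.1, h⟩ else 0) * G a.1 = 0 :=
    Finset.sum_eq_zero fun a _ => by rw [dif_neg a.2, zero_mul]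
  rw [h2, add_zero]
  exact Finset.sum_congr rfl fun a _ => by rw [dif_pos a.2]

theorem sum_page (c : ι → ℝ) :
    ∑ j, c j * (pg j).elim 0 (fun _ => (s j : ℝ)) = ∑ p, psum pg s c p := by
  unfold psum
  rw [Finset.sum_comm]
  refine Finset.sum_congr rfl fun j _ => ?_
  rcases hp : pg j with _ | p0
  · simp
  · rw [Finset.sum_eq_single p0]
    · simp
    · intro p _ hne
      have : ¬ (some p0 = some p) := fun h => hne (Option.some.inj h).symm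
      rw [if_neg this]
    · intro h
      exact absurd (Finset.mem_univ _) h

theorem sum_s0 (c : ι → ℝ) :
    ∑ j, c j * (s0 p₀ pg s j : ℝ) = psum pg s c p₀ := by
  unfold psum s0
  refine Finset.sum_congr rfl fun j _ => ?_
  split_ifs
  · simp
  · simp

/-- The lower bound for the merged problem. -/
theorem hyp {δ : ℝ} {𝓑 : Finset (Finset P)} {C : Finset P → P → Finset P} (h0 : GroupLift)
    (hM : FullIneq) (hB : IsBook g q δ 𝓑 C pg s w κ) (hne : ∀ p, ∃ j, pg j = some p)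
    (hres : IsRes q 𝓑 pg s w κ 𝒬 W) (hD : Dec p₀ 𝒮 𝒯 𝒬) (htriv : ∀ p ∈ 𝒯, Triv q pg s κ p)
    [Fintype (RJ p₀ 𝒮 pg)] [Fintype (RF 𝒯 γ pg)] (c : RJ p₀ 𝒮 pg ⊕ RF 𝒯 γ pg → ℝ)
    (hc : ∀ j, 0 ≤ c j) (b : XX 𝒮 𝒯 γ k → ℤ) (hb : b ≠ 0)
    (hbe : ∀ x, (b x : ℝ) = ∑ j, c j * mv p₀ 𝒮 𝒯 γ pg s w W j x) :
    ∃ B ∈ 𝓑, B ⊆ 𝒬 ∧ min δ (1 / 2) ≤ ∑ j, c j *
        (((∑ x, fnP 𝒮 𝒯 γ (bas q B) (0 : Fin k → ℤ) x * mv p₀ 𝒮 𝒯 γ pg s w W j x : ℤ) : ℝ) -
          mT g q p₀ 𝒮 𝒯 γ pg s κ j) := by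
  classical
  obtain ⟨c₁, hc1, hc1', h1⟩ := sum_ext_sub' (fun j : ι => ∀ p, pg j = some p → p = p₀ ∨ p ∈ 𝒮)
    (fun j => c (Sum.inl j))
  obtain ⟨cf, hcf, hcf', h2⟩ := sum_ext_sub' (fun y : P × (P → ι) => y.1 ∈ 𝒯.image γ ∧
    ∀ p ∈ 𝒯, γ p = y.1 → pg (y.2 p) = some p) (fun j => c (Sum.inr j))
  obtain ⟨η, ζ, b', rfl⟩ := fn_surj 𝒮 𝒯 γ b
  have hc1n : ∀ j, 0 ≤ c₁ j := fun j => by
    by_cases h : ∀ p, pg j = some p → p = p₀ ∨ p ∈ 𝒮
    · rw [hc1 j h]; exact hc _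
    · rw [hc1' j h]
  have hcfn : ∀ y, 0 ≤ cf y := fun y => by
    by_cases h : y.1 ∈ 𝒯.image γ ∧ ∀ p ∈ 𝒯, γ p = y.1 → pg (y.2 p) = some p
    · rw [hcf y h]; exact hc _
    · rw [hcf' y h]
  have hc1z : ∀ j p, pg j = some p → p ≠ p₀ → p ∉ 𝒮 → c₁ j = 0 := by
    intro j p hj hp hpS
    refine hc1' j fun h => ?_
    rcases h p hj with h | h
    · exact hp h
    · exact hpS h
  obtain ⟨c', hc', hp1, hp2, hp3, hw, hκ⟩ := h0 P ι P k q pg s w κ 𝒯 γ htriv c₁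
    (fun x f => cf (x, f)) hc1n (fun x f => hcfn _)
    (fun j p hj hp => hc1z j p hj (fun h => hD.T0 (h ▸ hp))
      (fun h => Finset.disjoint_left.1 hD.ST h hp))
    (fun x f hxf p hp hγ => by
      by_contra hcon
      exact hxf (hcf' (x, f) fun h => hcon (h.2 p hp hγ)))
  have hS : ∀ p ∈ 𝒮, (η p : ℝ) = psum pg s c' p - psum pg s c' p₀ := by
    intro p hp
    have h := hbe (Sum.inl ⟨p, hp⟩)
    rw [Fintype.sum_sum_type] at h
    have h3 := h1 (fun j => (((if pg j = some p then (s j : ℤ) else 0) - s0 p₀ pg s j : ℤ) : ℝ))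
    have h4 : ∑ y : RF 𝒯 γ pg, c (Sum.inr y) *
        ((mv p₀ 𝒮 𝒯 γ pg s w W (Sum.inr y) (Sum.inl ⟨p, hp⟩) : ℤ) : ℝ) = 0 :=
      Finset.sum_eq_zero fun y _ => by
        show _ * ((0 : ℤ) : ℝ) = 0
        rw [Int.cast_zero, mul_zero]
    rw [h4, add_zero] at h
    have h5 : (η p : ℝ) = ∑ j, c₁ j *
        (((if pg j = some p then (s j : ℤ) else 0) - s0 p₀ pg s j : ℤ) : ℝ) := h.trans h3
    rw [h5, hp1 p (Finset.disjoint_left.1 hD.ST hp), hp1 p₀ hD.T0, ← sum_s0 (p₀ := p₀) (pg := pg) (s := s) c₁]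
    unfold psum
    rw [← Finset.sum_sub_distrib]
    refine Finset.sum_congr rfl fun j _ => ?_
    split_ifs
    · push_cast; ring
    · push_cast; ring
  have hcfx : ∀ x : P, ∑ y : P × (P → ι), cf y * (if x = y.1 then 1 else 0) =
      ∑ f, cf (x, f) := by
    intro x
    rw [Fintype.sum_prod_type, Finset.sum_eq_single x]
    · refine Finset.sum_congr rfl fun f _ => ?_
      simp
    · intro x' _ hx
      refine Finset.sum_eq_zero fun f _ => ?_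
      rw [if_neg fun h => hx h.symm, mul_zero]
    · intro h
      exact absurd (Finset.mem_univ _) h
  have hT : ∀ p ∈ 𝒯, (ζ (γ p) : ℝ) = psum pg s c' p - psum pg s c' p₀ := by
    intro p hp
    have hx : γ p ∈ 𝒯.image γ := Finset.mem_image_of_mem _ hp
    have h := hbe (Sum.inr (Sum.inl ⟨γ p, hx⟩))
    rw [Fintype.sum_sum_type] at h
    have h3 := h1 (fun j => ((- s0 p₀ pg s j : ℤ) : ℝ))
    have h4 := h2 (fun y => (((if γ p = y.1 then 1 else 0 : ℤ)) : ℝ))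
    have h5 : (ζ (γ p) : ℝ) = ∑ j, c₁ j * ((- s0 p₀ pg s j : ℤ) : ℝ) +
        ∑ y, cf y * (((if γ p = y.1 then 1 else 0 : ℤ)) : ℝ) := by
      rw [← h3, ← h4]
      exact h
    have h6 : ∑ j, c₁ j * ((- s0 p₀ pg s j : ℤ) : ℝ) = - psum pg s c₁ p₀ := by
      rw [← sum_s0 (p₀ := p₀) (pg := pg) (s := s) c₁, ← Finset.sum_neg_distrib]
      refine Finset.sum_congr rfl fun j _ => ?_
      push_cast
      ring
    have h7 : ∑ y, cf y * (((if γ p = y.1 then 1 else 0 : ℤ)) : ℝ) = ∑ f, cf (γ p, f) := by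
      rw [← hcfx]
      refine Finset.sum_congr rfl fun y _ => ?_
      split_ifs
      · simp
      · simp
    rw [h5, h6, h7, hp2 p hp, hp1 p₀ hD.T0]
    ring
  have hW : ∀ i, (b' i : ℝ) = ∑ j, c' j * (w j i : ℝ) + psum pg s c' p₀ * W i := by
    intro i
    have h := hbe (Sum.inr (Sum.inr i))
    rw [Fintype.sum_sum_type] at h
    have h3 := h1 (fun j => ((w j i + s0 p₀ pg s j * W i : ℤ) : ℝ))
    have h4 := h2 (fun y => ((∑ p ∈ 𝒯.filter (fun p => γ p = y.1), w (y.2 p) i : ℤ) : ℝ))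
    have h5 : (b' i : ℝ) = ∑ j, c₁ j * ((w j i + s0 p₀ pg s j * W i : ℤ) : ℝ) +
        ∑ y, cf y * ((∑ p ∈ 𝒯.filter (fun p => γ p = y.1), w (y.2 p) i : ℤ) : ℝ) := by
      rw [← h3, ← h4]
      exact h
    rw [h5, hw i, hp1 p₀ hD.T0, Fintype.sum_prod_type, ← sum_s0 (p₀ := p₀) (pg := pg) (s := s) c₁, Finset.sum_mul]
    have h6 : ∑ j, c₁ j * ((w j i + s0 p₀ pg s j * W i : ℤ) : ℝ) =
        ∑ j, c₁ j * (w j i : ℝ) + ∑ j, c₁ j * (s0 p₀ pg s j : ℝ) * W i := by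
      rw [← Finset.sum_add_distrib]
      refine Finset.sum_congr rfl fun j _ => ?_
      push_cast
      ring
    rw [h6]
    push_cast
    ring
  have hint : ∀ p ∈ 𝒬, ∃ n : ℤ, psum pg s c' p - psum pg s c' p₀ = n := by
    intro p hp
    rcases hD.mem.1 hp with rfl | h | h
    · exact ⟨0, by simp⟩
    · exact ⟨η p, (hS p h).symm⟩
    · exact ⟨ζ (γ p), (hT p h).symm⟩
  obtain ⟨B, hB1, hB2, hle⟩ := hM P ι k g q δ 𝓑 C pg s w κ hB hne 𝒬 W hres p₀ hD.mem0 c' hc'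
    (fun j p hj hp => by
      rw [hp3 j fun p' hp' => by
        rw [hj] at hp'
        cases hp'
        exact fun h => hp (hD.memT h)]
      exact hc1z j p hj (fun h => hp (h ▸ hD.mem0)) fun h => hp (hD.memS h))
    (fun p hp p' hp' => by
      obtain ⟨n, hn⟩ := hint p hp
      obtain ⟨n', hn'⟩ := hint p' hp'
      exact ⟨n - n', by push_cast; rw [← hn, ← hn']; ring⟩)
    b' hW (by
      by_contra hcon
      push Not at hcon
      apply hb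
      funext x
      rcases x with ⟨p, hp⟩ | ⟨x, hx⟩ | i
      · have := hS p hp
        rw [hcon.1 p (hD.memS hp) p₀ hD.mem0, sub_self] at this
        show η p = 0
        exact_mod_cast this
      · obtain ⟨p, hp, rfl⟩ := Finset.mem_image.1 hx
        have := hT p hp
        rw [hcon.1 p (hD.memT hp) p₀ hD.mem0, sub_self] at this
        show ζ (γ p) = 0
        exact_mod_cast this
      · exact congrFun hcon.2 i)
  refine ⟨B, hB1, hB2, hle.trans (le_of_eq ?_)⟩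
  have hq1 : ∑ j, c j *
      (((∑ x, fnP 𝒮 𝒯 γ (bas q B) (0 : Fin k → ℤ) x * mv p₀ 𝒮 𝒯 γ pg s w W j x : ℤ) : ℝ) -
          mT g q p₀ 𝒮 𝒯 γ pg s κ j) =
      ((∑ x, fnP 𝒮 𝒯 γ (bas q B) (0 : Fin k → ℤ) x * fn 𝒮 𝒯 γ η ζ b' x : ℤ) : ℝ) -
        ∑ j, c j * mT g q p₀ 𝒮 𝒯 γ pg s κ j := by
    simp only [mul_sub, Finset.sum_sub_distrib]
    congr 1
    push_cast
    simp only [Finset.mul_sum]
    rw [Finset.sum_comm]
    refine Finset.sum_congr rfl fun x _ => ?_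
    rw [hbe x, Finset.mul_sum]
    exact Finset.sum_congr rfl fun j _ => by ring
  have hq2 : ((∑ x, fnP 𝒮 𝒯 γ (bas q B) (0 : Fin k → ℤ) x * fn 𝒮 𝒯 γ η ζ b' x : ℤ) : ℝ) =
      q * ∑ p ∈ B, psum pg s c' p - q * (g + 1) * psum pg s c' p₀ := by
    unfold fnP
    rw [pair_fn, sum_grp (bas q B) ζ]
    simp only [Pi.zero_apply, zero_mul, Finset.sum_const_zero, add_zero]
    have e1 : ((∑ p ∈ 𝒮, bas q B p * η p + ∑ p ∈ 𝒯, bas q B p * ζ (γ p) : ℤ) : ℝ) =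
        ∑ p ∈ 𝒬, (bas q B p : ℝ) * (psum pg s c' p - psum pg s c' p₀) := by
      rw [hD.sum, sub_self, mul_zero, zero_add]
      push_cast
      congr 1
      · exact Finset.sum_congr rfl fun p hp => by rw [hS p hp]
      · exact Finset.sum_congr rfl fun p hp => by rw [hT p hp]
    rw [e1]
    have e2 : ∀ F : P → ℝ, ∑ p ∈ 𝒬, (bas q B p : ℝ) * F p = q * ∑ p ∈ B, F p := by
      intro F
      unfold bas
      push_cast
      simp only [ite_mul, zero_mul]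
      rw [← Finset.sum_filter, Finset.mul_sum]
      have : 𝒬.filter (fun p => p ∈ B) = B := by
        ext p
        simp only [Finset.mem_filter]
        exact ⟨fun h => h.2, fun h => ⟨hB2 h, h⟩⟩
      rw [this]
    rw [e2, Finset.sum_sub_distrib, Finset.sum_const, hB.mat.card B hB1, nsmul_eq_mul]
    push_cast
    ring
  have hq3 : ∑ j, c j * (mT g q p₀ 𝒮 𝒯 γ pg s κ j : ℝ) =
      q * ∑ p, psum pg s c₁ p - ∑ j, c₁ j * κ j - (g + 1) * q * psum pg s c' p₀ := by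
    rw [Fintype.sum_sum_type]
    have e1 : ∑ y : RF 𝒯 γ pg, c (Sum.inr y) *
        ((mT g q p₀ 𝒮 𝒯 γ pg s κ (Sum.inr y) : ℤ) : ℝ) = 0 :=
      Finset.sum_eq_zero fun y _ => by
        show _ * ((0 : ℤ) : ℝ) = 0
        rw [Int.cast_zero, mul_zero]
    have e2 := h1 (fun j => (((pg j).elim 0 (fun _ => (q : ℤ) * s j) - κ j -
      (g + 1) * q * s0 p₀ pg s j : ℤ) : ℝ))
    rw [e1, add_zero]
    refine Eq.trans e2 ?_
    rw [hp1 p₀ hD.T0, ← sum_page (pg := pg) (s := s) c₁,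
      ← sum_s0 (p₀ := p₀) (pg := pg) (s := s) c₁, Finset.mul_sum, Finset.mul_sum,
      ← Finset.sum_sub_distrib, ← Finset.sum_sub_distrib]
    refine Finset.sum_congr rfl fun j _ => ?_
    rcases hp : pg j with _ | p
    · simp only [Option.elim]
      push_cast
      ring
    · simp only [Option.elim]
      push_cast
      ring
  have hq4 : ∑ p, psum pg s c₁ p = ∑ p ∈ 𝒬, psum pg s c' p - ∑ p ∈ 𝒯, psum pg s c' p := by
    have e1 : ∑ p ∈ 𝒬, psum pg s c' p - ∑ p ∈ 𝒯, psum pg s c' p =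
        ∑ p ∈ insert p₀ 𝒮, psum pg s c₁ p := by
      rw [hD.sum, Finset.sum_insert hD.S0, hp1 p₀ hD.T0,
        Finset.sum_congr rfl (fun p hp => hp1 p (Finset.disjoint_left.1 hD.ST hp))]
      ring
    rw [e1]
    symm
    refine Finset.sum_subset (Finset.subset_univ _) fun p _ hp => ?_
    unfold psum
    refine Finset.sum_eq_zero fun j _ => ?_
    split_ifs with hj
    · rw [hc1z j p hj (fun h => hp (h ▸ Finset.mem_insert_self _ _))
        (fun h => hp (Finset.mem_insert_of_mem h)), zero_mul]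
    · rfl
  have hq5 : q * ∑ x, ((𝒯.filter fun p => γ p = x).card : ℝ) * ∑ f, cf (x, f) =
      q * ∑ p ∈ 𝒯, psum pg s c' p := by
    congr 1
    rw [← Finset.sum_fiberwise (s := 𝒯) (g := γ)]
    refine Finset.sum_congr rfl fun x _ => ?_
    rw [← nsmul_eq_mul, ← Finset.sum_const]
    refine Finset.sum_congr rfl fun p hp => ?_
    obtain ⟨hp, hx⟩ := Finset.mem_filter.1 hp
    rw [hp2 p hp, hx]
  rw [hq1, hq2, hq3, hq4]
  unfold vl
  rw [hκ, hq5, ← Finset.sum_sdiff hB2]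
  ring

/-- The bases with the largest weight. -/
theorem sum_le {n : ℕ} {𝓑 : Finset (Finset P)} {C : Finset P → P → Finset P} (hm : IsMat n 𝓑 C)
    {B₁ B : Finset P} (hB₁ : B₁ ∈ 𝓑) (hB : B ∈ 𝓑) (hBQ : B ⊆ 𝒬) (σ : P → ℕ)
    (had : ∀ p ∈ 𝒬, (∀ b ∈ C B₁ p, σ p ≤ σ b) ∧ ∃ b ∈ C B₁ p, σ p = σ b) :
    ∑ p ∈ B, (σ p : ℤ) ≤ ∑ p ∈ B₁, (σ p : ℤ) := by
  obtain ⟨f, hf, hf'⟩ := hm.mtch B₁ hB₁ B hB
  calc ∑ p ∈ B, (σ p : ℤ) ≤ ∑ p ∈ B, (σ (f p) : ℤ) :=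
        Finset.sum_le_sum fun p hp => by exact_mod_cast (had p (hBQ hp)).1 _ (hf' p hp)
    _ = ∑ x ∈ B.image f, (σ x : ℤ) := (Finset.sum_image (g := f) (f := fun x => (σ x : ℤ)) hf).symm
    _ ≤ ∑ p ∈ B₁, (σ p : ℤ) :=
        Finset.sum_le_sum_of_subset_of_nonneg (fun x hx => by
          obtain ⟨p, hp, rfl⟩ := Finset.mem_image.1 hx
          exact hm.sub B₁ hB₁ p (hf' p hp)) fun _ _ _ => Int.natCast_nonneg _

theorem c4 (hp : T647.PointDoi) (h0 : GroupLift) (h1 : CountRow) (h2 : FullIneq) : CaseV := by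
  classical
  intro k g q δ hδ
  have H := fun m => hp m ((g + 1) * q) (min δ (1 / 2)) (lt_min hδ (by norm_num))
  choose k₀ hk₀ H using H
  refine ⟨∏ m ∈ Finset.range (2 * q * (g + 1) + 2 * (g + 1) + k + 1), k₀ m,
    Finset.prod_pos fun m _ => hk₀ m, ?_⟩
  intro P ι _ _ _ 𝓑 C pg s w κ hB hne 𝒬 W hres p₀ hp₀ B₁ hB₁ hB₁Q σ a hσ0 had hσa hin hreal K hK
    hK0
  obtain ⟨𝒩, h𝒩⟩ : ∃ 𝒩 : Finset P,
      𝒩 = insert p₀ (B₁ ∪ 𝒬.filter fun p => ¬ Triv q pg s κ p) := ⟨_, rfl⟩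
  have hNQ : 𝒩 ⊆ 𝒬 := by
    rw [h𝒩]
    intro p hp
    rcases Finset.mem_insert.1 hp with rfl | hp
    · exact hp₀
    · rcases Finset.mem_union.1 hp with hp | hp
      · exact hB₁Q hp
      · exact (Finset.mem_filter.1 hp).1
  have hp₀N : p₀ ∈ 𝒩 := h𝒩 ▸ Finset.mem_insert_self _ _
  obtain ⟨𝒮, h𝒮⟩ : ∃ 𝒮 : Finset P, 𝒮 = 𝒩.erase p₀ := ⟨_, rfl⟩
  obtain ⟨𝒯, h𝒯⟩ : ∃ 𝒯 : Finset P, 𝒯 = 𝒬 \ 𝒩 := ⟨_, rfl⟩
  have hD : Dec p₀ 𝒮 𝒯 𝒬 := by
    refine ⟨?_, ?_, ?_, ?_⟩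
    · rw [h𝒮]; exact Finset.notMem_erase _ _
    · rw [h𝒯]
      exact fun h => (Finset.mem_sdiff.1 h).2 hp₀N
    · rw [h𝒮, h𝒯, Finset.disjoint_left]
      intro p hp hp'
      exact (Finset.mem_sdiff.1 hp').2 (Finset.mem_of_mem_erase hp)
    · ext p
      rw [h𝒮, h𝒯]
      simp only [Finset.mem_insert, Finset.mem_union, Finset.mem_erase, Finset.mem_sdiff]
      constructor
      · intro hp
        by_cases h1 : p = p₀
        · exact Or.inl h1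
        · by_cases h2 : p ∈ 𝒩
          · exact Or.inr (Or.inl ⟨h1, h2⟩)
          · exact Or.inr (Or.inr ⟨hp, h2⟩)
      · rintro (rfl | h | h)
        · exact hp₀
        · exact hNQ h.2
        · exact h.1
  have htriv : ∀ p ∈ 𝒯, Triv q pg s κ p := by
    intro p hp
    rw [h𝒯] at hp
    obtain ⟨hp1, hp2⟩ := Finset.mem_sdiff.1 hp
    by_contra hcon
    apply hp2
    rw [h𝒩]
    exact Finset.mem_insert_of_mem (Finset.mem_union_right _ (Finset.mem_filter.2 ⟨hp1, hcon⟩))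
  have hγ : ∀ p ∈ 𝒯, ∃ b ∈ C B₁ p, σ p = σ b := fun p hp => (had p (hD.memT hp)).2
  choose! γ hγ1 hγ2 using hγ
  have hγB : ∀ p ∈ 𝒯, γ p ∈ B₁ := fun p hp => hB.mat.sub B₁ hB₁ p (hγ1 p hp)
  have hσγ : ∀ p ∈ 𝒯, σ (γ p) = σ p := fun p hp => (hγ2 p hp).symm
  have hcard : Fintype.card (XX 𝒮 𝒯 γ k) ≤ 2 * q * (g + 1) + 2 * (g + 1) + k := by
    have e1 : 𝒮.card ≤ (g + 1) + 2 * q * (g + 1) := by
      have e2 : 𝒮 ⊆ B₁ ∪ 𝒬.filter fun p => ¬ Triv q pg s κ p := by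
        intro p hp
        rw [h𝒮, h𝒩] at hp
        exact (Finset.mem_insert.1 (Finset.mem_of_mem_erase hp)).resolve_left
          (Finset.ne_of_mem_erase hp)
      have e3 := h1 P ι k g q δ 𝓑 C pg s w κ hB B₁ hB₁ Finset.univ (by
        intro p
        obtain ⟨b, hb⟩ := hB.mat.nz B₁ hB₁ p
        refine ⟨fun b _ => by simp, b, hb, by simp⟩) (fun p _ => hne p)
        (𝒬.filter fun p => ¬ Triv q pg s κ p) (Finset.subset_univ _)
        (fun p hp => (Finset.mem_filter.1 hp).2)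
      refine (Finset.card_le_card e2).trans ((Finset.card_union_le _ _).trans ?_)
      rw [hB.mat.card B₁ hB₁]
      omega
    have e4 : (𝒯.image γ).card ≤ g + 1 := by
      rw [← hB.mat.card B₁ hB₁]
      refine Finset.card_le_card fun x hx => ?_
      obtain ⟨p, hp, rfl⟩ := Finset.mem_image.1 hx
      exact hγB p hp
    have e5 : Fintype.card (XX 𝒮 𝒯 γ k) = 𝒮.card + ((𝒯.image γ).card + k) := by
      simp only [Fintype.card_sum, Fintype.card_fin, Fintype.card_coe]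
    rw [e5]
    omega
  set Ls : Finset (XX 𝒮 𝒯 γ k → ℤ) := (𝓑.filter fun B => B ⊆ 𝒬).image
    fun B => fnP 𝒮 𝒯 γ (bas q B) 0 with hLsdef
  have hLs : ∀ ℓ ∈ Ls, ∃ B ∈ 𝓑, B ⊆ 𝒬 ∧ fnP 𝒮 𝒯 γ (bas q B) (0 : Fin k → ℤ) = ℓ := by
    intro ℓ hℓ
    obtain ⟨B, hB, rfl⟩ := Finset.mem_image.1 hℓ
    exact ⟨B, (Finset.mem_filter.1 hB).1, (Finset.mem_filter.1 hB).2, rfl⟩
  have hLs' : ∀ B ∈ 𝓑, B ⊆ 𝒬 → fnP 𝒮 𝒯 γ (bas q B) (0 : Fin k → ℤ) ∈ Ls := fun B hB hBQ =>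
    Finset.mem_image_of_mem _ (Finset.mem_filter.2 ⟨hB, hBQ⟩)
  have H' := H (Fintype.card (XX 𝒮 𝒯 γ k)) (XX 𝒮 𝒯 γ k) (RJ p₀ 𝒮 pg ⊕ RF 𝒯 γ pg) rfl
    (mv p₀ 𝒮 𝒯 γ pg s w W) Ls (mT g q p₀ 𝒮 𝒯 γ pg s κ) (mκ g q p₀ 𝒮 𝒯 γ pg κ)
    (by
      rintro (j | f)
      · refine (hB.κq _).trans ?_
        exact Nat.le_mul_of_pos_left _ (Nat.succ_pos _)
      · exact le_rfl)
    (by
      intro ℓ hℓ j
      obtain ⟨B, hB', hBQ, rfl⟩ := hLs ℓ hℓ
      exact ls_le hD hBQ (hB.mat.card B hB') j)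
    (by
      intro c hc b hb hbe
      obtain ⟨B, hB', hBQ, hle⟩ := hyp h0 h2 hB hne hres hD htriv c hc b hb hbe
      exact ⟨_, hLs' B hB' hBQ, hle⟩)
    K ((Finset.dvd_prod_of_mem k₀ (Finset.mem_range.2 (Nat.lt_succ_of_le hcard))).trans hK) hK0
    (fn 𝒮 𝒯 γ (fun p => (σ p : ℤ)) (fun p => (σ p : ℤ)) a)
    (by
      intro h
      rcases hσa with ⟨p, hp, hσp⟩ | ha
      · rcases hD.mem.1 hp with rfl | hpS | hpT
        · exact hσp hσ0
        · have := congrFun h (Sum.inl ⟨p, hpS⟩)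
          apply hσp
          have h3 : (σ p : ℤ) = 0 := this
          exact_mod_cast h3
        · have := congrFun h (Sum.inr (Sum.inl ⟨γ p, Finset.mem_image_of_mem _ hpT⟩))
          apply hσp
          have h3 : (σ (γ p) : ℤ) = 0 := this
          rw [hσγ p hpT] at h3
          exact_mod_cast h3
      · apply ha
        funext i
        exact congrFun h (Sum.inr (Sum.inr i)))
    (by
      intro v hv
      obtain ⟨e, β, u, rfl⟩ := fn_surj 𝒮 𝒯 γ v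
      obtain ⟨b', hS', hle⟩ := back (g := g) (q := q) hD hne htriv 0 e β u (by
        intro j
        rw [Nat.cast_zero, zero_mul]
        exact (hv j).trans_eq (Finset.sum_congr rfl fun _ _ => mul_comm _ _)) σ hσ0 hσγ
      have h3 := hin b' u (by
        have := hS'.1
        rw [neg_dot, Nat.cast_zero, mul_zero] at this
        linarith) (by
        intro j hj
        have := hS'.2 j hj
        unfold fval at this
        rw [neg_dot, Nat.cast_zero, zero_mul, mul_zero] at this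
        rcases hpj : pg j with _ | p
        · simp only [hpj, Option.elim] at this ⊢
          linarith
        · simp only [hpj, Option.elim] at this ⊢
          linarith)
      rw [pair_fn]
      have e1 : ∑ p ∈ 𝒬, (σ p : ℤ) * b' p = ∑ p ∈ 𝒬, b' p * σ p :=
        Finset.sum_congr rfl fun _ _ => mul_comm _ _
      have e2 : ∑ p ∈ 𝒮, (σ p : ℤ) * e p = ∑ p ∈ 𝒮, e p * σ p :=
        Finset.sum_congr rfl fun _ _ => mul_comm _ _
      have e3 : ∑ x ∈ 𝒯.image γ, (σ x : ℤ) * β x = ∑ x ∈ 𝒯.image γ, β x * σ x :=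
        Finset.sum_congr rfl fun _ _ => mul_comm _ _
      have e4 : ∑ i, a i * u i = ∑ i, u i * a i :=
        Finset.sum_congr rfl fun _ _ => mul_comm _ _
      rw [e2, e3, e4]
      rw [e1] at h3
      linarith)
    (by
      obtain ⟨r, hr, b, c, hS, ht⟩ := hreal
      refine ⟨r, fnP 𝒮 𝒯 γ b (fun i => -c i), fwd hD htriv r b c hS, _, hLs' B₁ hB₁ hB₁Q, ?_⟩
      rw [pair_target hD _ _ _ σ hσ0 hσγ, pair_target hD _ _ _ σ hσ0 hσγ, sum_bas B₁ hB₁Q,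
        neg_dot]
      simp only [Pi.zero_apply, zero_mul, Finset.sum_const_zero, add_zero]
      unfold tval at ht
      linarith)
  obtain ⟨Y, hY, ℓ, hℓ, hlt⟩ := H'
  obtain ⟨e, β, u, rfl⟩ := fn_surj 𝒮 𝒯 γ Y
  obtain ⟨B, hB', hBQ, rfl⟩ := hLs ℓ hℓ
  obtain ⟨b', hS', hle⟩ := back hD hne htriv K e β u hY σ hσ0 hσγ
  refine ⟨b', fun i => -u i, hS', ?_⟩
  rw [pair_fn, pair_target hD _ _ _ σ hσ0 hσγ, sum_bas B hBQ] at hlt
  simp only [Pi.zero_apply, zero_mul, Finset.sum_const_zero, add_zero] at hlt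
  have h3 := sum_le hB.mat hB₁ hB' hBQ σ had
  have h4 : (K : ℤ) * (q * ∑ p ∈ B, (σ p : ℤ)) ≤ K * (q * ∑ p ∈ B₁, (σ p : ℤ)) :=
    mul_le_mul_of_nonneg_left (mul_le_mul_of_nonneg_left h3 (Int.natCast_nonneg _))
      (Int.natCast_nonneg _)
  unfold tval
  rw [neg_dot]
  linarith

end H691

end Vale.Agent.P283.M647
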